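import Mathlib

/-!
# Sequential colimits of vector spaces and compatible families of functionals
-/

namespace Vale.Agent.P291Z.EL

open Function Module

variable {A B C : ℕ → Type} [∀ M, AddCommGroup (A M)] [∀ M, Module ℂ (A M)]
  [∀ M, AddCommGroup (B M)] [∀ M, Module ℂ (B M)] [∀ M, AddCommGroup (C M)] [∀ M, Module ℂ (C M)]
  (a : ∀ M, A M →ₗ[ℂ] A (M + 1)) (b : ∀ M, B M →ₗ[ℂ] B (M + 1)) (c : ∀ M, C M →ₗ[ℂ] C (M + 1))

/-- the transition maps -/
def tr (i j : ℕ) (h : i ≤ j) : A i →ₗ[ℂ] A j :=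
  Nat.leRecOn h (fun {k} φ => a k ∘ₗ φ) LinearMap.id

theorem tr_self (i : ℕ) (x : A i) : tr a i i le_rfl x = x := by
  rw [tr, Nat.leRecOn_self]
  rfl

theorem tr_succ {i j : ℕ} (h : i ≤ j) (h' : i ≤ j + 1) (x : A i) :
    tr a i (j + 1) h' x = a j (tr a i j h x) := by
  rw [tr, Nat.leRecOn_succ h]
  rfl

theorem tr_tr {i j k : ℕ} (h : i ≤ j) (h' : j ≤ k) (x : A i) :
    tr a j k h' (tr a i j h x) = tr a i k (h.trans h') x := by
  induction k, h' using Nat.le_induction with
  | base => rw [tr_self]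
  | succ k hk ih => rw [tr_succ a hk, tr_succ a (h.trans hk), ih]

instance : DirectedSystem A fun i j h => tr a i j h :=
  ⟨fun i x => tr_self a i x, fun _ _ _ h h' x => tr_tr a h h' x⟩

/-- the colimit -/
def Col : Type := Module.DirectLimit A (tr a)

noncomputable instance : AddCommGroup (Col a) :=
  inferInstanceAs (AddCommGroup (Module.DirectLimit A (tr a)))

noncomputable instance : Module ℂ (Col a) :=
  inferInstanceAs (Module ℂ (Module.DirectLimit A (tr a)))

/-- the maps to the colimit -/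
noncomputable def of (M : ℕ) : A M →ₗ[ℂ] Col a := Module.DirectLimit.of ℂ ℕ A (tr a) M

theorem of_tr {i j : ℕ} (h : i ≤ j) (x : A i) : of a j (tr a i j h x) = of a i x :=
  Module.DirectLimit.of_f

theorem of_succ (M : ℕ) (x : A M) : of a (M + 1) (a M x) = of a M x := by
  rw [← of_tr a M.le_succ x, tr_succ a le_rfl, tr_self]

theorem exists_of (z : Col a) : ∃ M x, of a M x = z := Module.DirectLimit.exists_of z

variable {a}

theorem comm_tr {P : Type} (g : ∀ M, A M → P) (hg : ∀ M x, g (M + 1) (a M x) = g M x) {i j : ℕ}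
    (h : i ≤ j) (x : A i) : g j (tr a i j h x) = g i x := by
  induction j, h using Nat.le_induction with
  | base => rw [tr_self]
  | succ k hk ih => rw [tr_succ a hk, hg, ih]

/-- the map from the colimit given by compatible maps -/
noncomputable def lift {P : Type} [AddCommGroup P] [Module ℂ P] (g : ∀ M, A M →ₗ[ℂ] P)
    (hg : ∀ M x, g (M + 1) (a M x) = g M x) : Col a →ₗ[ℂ] P :=
  Module.DirectLimit.lift ℂ ℕ A (tr a) g fun _ _ h x => comm_tr (fun M => g M) hg h x

theorem lift_of {P : Type} [AddCommGroup P] [Module ℂ P] (g : ∀ M, A M →ₗ[ℂ] P)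
    (hg : ∀ M x, g (M + 1) (a M x) = g M x) (M : ℕ) (x : A M) : lift g hg (of a M x) = g M x :=
  Module.DirectLimit.lift_of (f := tr a) _ _ _

variable {b c}

theorem map_tr {f : ∀ M, A M → B M} (hf : ∀ M x, f (M + 1) (a M x) = b M (f M x)) {i j : ℕ}
    (h : i ≤ j) (x : A i) : f j (tr a i j h x) = tr b i j h (f i x) := by
  induction j, h using Nat.le_induction with
  | base => rw [tr_self, tr_self]
  | succ k hk ih => rw [tr_succ a hk, tr_succ b hk, hf, ih]

/-- **Levelwise exact direct systems give exact sequences of compatible functionals.** -/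
theorem exists_fam {f : ∀ M, A M →ₗ[ℂ] B M} {g : ∀ M, B M →ₗ[ℂ] C M}
    (hg : ∀ M x, g (M + 1) (b M x) = c M (g M x)) (he : ∀ M, Function.Exact (f M) (g M))
    {β : ∀ M, Dual ℂ (B M)} (hβ : ∀ M, (b M).dualMap (β (M + 1)) = β M)
    (h0 : ∀ M, (f M).dualMap (β M) = 0) :
    ∃ γ : ∀ M, Dual ℂ (C M), (∀ M, (c M).dualMap (γ (M + 1)) = γ M) ∧
      ∀ M, (g M).dualMap (γ M) = β M := by
  have hβ' : ∀ M x, β (M + 1) (b M x) = β M x := fun M x => LinearMap.congr_fun (hβ M) x
  let G : Col b →ₗ[ℂ] Col c := lift (fun M => of c M ∘ₗ g M) fun M x => by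
    rw [LinearMap.comp_apply, LinearMap.comp_apply, hg, of_succ]
  have hG : ∀ M x, G (of b M x) = of c M (g M x) := fun M x => lift_of _ _ M x
  have hk : lift β hβ' ∈ (LinearMap.ker G).dualAnnihilator := by
    rw [Submodule.mem_dualAnnihilator]
    intro z hz
    obtain ⟨M, y, rfl⟩ := exists_of b z
    rw [LinearMap.mem_ker, hG] at hz
    obtain ⟨N, h, hN⟩ := Module.DirectLimit.of.zero_exact hz
    rw [← map_tr (f := fun M => g M) hg h] at hN
    obtain ⟨x, hx⟩ := (he N _).1 hN
    rw [← of_tr b h, lift_of, ← hx]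
    exact LinearMap.congr_fun (h0 N) x
  rw [← LinearMap.range_dualMap_eq_dualAnnihilator_ker] at hk
  obtain ⟨γ, hγ⟩ := hk
  refine ⟨fun M => γ ∘ₗ of c M, fun M => LinearMap.ext fun x => congrArg γ (of_succ c M x),
    fun M => LinearMap.ext fun x => ?_⟩
  have := LinearMap.congr_fun hγ (of b M x)
  rwa [LinearMap.dualMap_apply, hG, lift_of] at this

/-- bilinear maps pass to the colimit -/
theorem exists_bilin (m : ∀ M, A M →ₗ[ℂ] B M →ₗ[ℂ] C M)
    (hm : ∀ M x y, m (M + 1) (a M x) (b M y) = c M (m M x y)) :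
    ∃ μ : Col a →ₗ[ℂ] Col b →ₗ[ℂ] Col c,
      ∀ M x y, μ (of a M x) (of b M y) = of c M (m M x y) := by
  have h1 : ∀ {i j} (h : i ≤ j) x y, of c j (m j (tr a i j h x) (tr b i j h y)) =
      of c i (m i x y) := fun {i j} h x y => by
    induction j, h using Nat.le_induction with
    | base => rw [tr_self, tr_self]
    | succ k hk ih => rw [tr_succ a hk, tr_succ b hk, hm, of_succ, ih]
  have h2 : ∀ {i j P P'} (hi : i ≤ P) (hj : j ≤ P) (hi' : i ≤ P') (hj' : j ≤ P') x y,
      of c P (m P (tr a i P hi x) (tr b j P hj y)) =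
        of c P' (m P' (tr a i P' hi' x) (tr b j P' hj' y)) := fun {i j P P'} _ _ _ _ x y => by
    rw [← h1 (le_max_left P P'), ← h1 (le_max_right P P'), tr_tr, tr_tr, tr_tr, tr_tr]
  let φ : ∀ i j, B j →ₗ[ℂ] A i →ₗ[ℂ] Col c := fun i j =>
    (((m (i + j)).compl₁₂ (tr a i _ (Nat.le_add_right i j))
      (tr b j _ (Nat.le_add_left j i))).compr₂ (of c (i + j))).flip
  have hφ : ∀ i j y x, φ i j y x = of c (i + j) (m (i + j) (tr a i _ (Nat.le_add_right i j) x)
      (tr b j _ (Nat.le_add_left j i) y)) := fun _ _ _ _ => rfl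
  have ha : ∀ M x, a M x = tr a M (M + 1) M.le_succ x := fun M x => by
    rw [tr_succ a le_rfl, tr_self]
  have hb : ∀ M x, b M x = tr b M (M + 1) M.le_succ x := fun M x => by
    rw [tr_succ b le_rfl, tr_self]
  have h3 : ∀ i j y, φ i (j + 1) (b j y) = φ i j y := fun i j y => LinearMap.ext fun x => by
    rw [hφ, hφ, hb, tr_tr]
    exact h2 _ _ _ _ x y
  have h4 : ∀ i x, (lift (φ (i + 1)) (h3 _)).flip (a i x) = (lift (φ i) (h3 _)).flip x :=
    fun i x => LinearMap.ext fun z => by
      obtain ⟨j, y, rfl⟩ := exists_of b z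
      rw [LinearMap.flip_apply, LinearMap.flip_apply, lift_of, lift_of, hφ, hφ, ha, tr_tr]
      exact h2 _ _ _ _ x y
  refine ⟨lift (fun i => (lift (φ i) (h3 i)).flip) h4, fun M x y => ?_⟩
  rw [lift_of, LinearMap.flip_apply, lift_of, hφ, h1]

variable (a)

/-- compatible families of functionals -/
def Fam : Submodule ℂ (∀ M, Dual ℂ (A M)) where
  carrier := {β | ∀ M x, β (M + 1) (a M x) = β M x}
  zero_mem' _ _ := rfl
  add_mem' h h' M x := by simp only [Pi.add_apply, LinearMap.add_apply, h M x, h' M x]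
  smul_mem' r _ h M x := by simp only [Pi.smul_apply, LinearMap.smul_apply, h M x]

/-- compatible families of functionals are functionals on the colimit -/
noncomputable def famEquiv : Dual ℂ (Col a) ≃ₗ[ℂ] Fam a :=
  LinearEquiv.ofBijective
    ((LinearMap.pi fun M => (of a M).dualMap).codRestrict (Fam a) fun γ M x =>
      congrArg γ (of_succ a M x))
    ⟨(injective_iff_map_eq_zero _).2 fun γ h => LinearMap.ext fun z => by
      obtain ⟨M, x, rfl⟩ := exists_of a z
      exact LinearMap.congr_fun (congrFun (congrArg Subtype.val h) M) x,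
    fun β => ⟨lift β.1 β.2, Subtype.ext (funext fun M => LinearMap.ext fun x =>
      lift_of β.1 β.2 M x)⟩⟩

section tensor

variable {V W : Type} [AddCommGroup V] [Module ℂ V] [AddCommGroup W] [Module ℂ W]

open TensorProduct in
/-- products of functionals separate the points of a tensor product -/
theorem tensor_eq_zero {s : V ⊗[ℂ] W}
    (h : ∀ (β : Dual ℂ V) (γ : Dual ℂ W), dualDistrib ℂ V W (β ⊗ₜ γ) s = 0) : s = 0 := by
  classical
  let e := Module.Free.chooseBasis ℂ W
  refine (equivFinsuppOfBasisRight (M := V) e).injective ?_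
  rw [map_zero]
  ext i
  refine (Module.forall_dual_apply_eq_zero_iff ℂ _).1 fun β => ?_
  rw [← h β (e.coord i)]
  clear h
  induction s with
  | zero => simp
  | tmul x y => simp [mul_comm]
  | add x y hx hy => simp only [map_add, Finsupp.add_apply, hx, hy]

/-- dimension in the middle of an exact sequence -/
theorem finite_of_exact {U : Type} [AddCommGroup U] [Module ℂ U] {f : U →ₗ[ℂ] V} {g : V →ₗ[ℂ] W}
    (h : Function.Exact f g) [Module.Finite ℂ U] [Module.Finite ℂ W] :
    Module.Finite ℂ V ∧ finrank ℂ V ≤ finrank ℂ U + finrank ℂ W := by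
  have hk : LinearMap.ker g = LinearMap.range f := h.linearMap_ker_eq
  have h1 : Module.Finite ℂ (LinearMap.ker g) := by rw [hk]; infer_instance
  have h2 : Module.Finite ℂ (V ⧸ LinearMap.ker g) := Module.Finite.equiv g.quotKerEquivRange.symm
  have h3 : Module.Finite ℂ V := Module.Finite.of_submodule_quotient (LinearMap.ker g)
  refine ⟨h3, ?_⟩
  rw [← g.finrank_range_add_finrank_ker, hk, add_comm]
  exact add_le_add f.finrank_range_le (Submodule.finrank_le _)

/-- dimension of a space spanned by the images of finitely many bilinear maps -/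
theorem finite_of_span {A B : ℤ → Type} [∀ j, AddCommGroup (A j)] [∀ j, Module ℂ (A j)]
    [∀ j, AddCommGroup (B j)] [∀ j, Module ℂ (B j)] (hA : ∀ j, Module.Finite ℂ (A j))
    (hB : ∀ j, Module.Finite ℂ (B j)) (μ : ∀ j, A j →ₗ[ℂ] B j →ₗ[ℂ] V) (s : Finset ℤ)
    (h : ∀ S : Submodule ℂ V, (∀ j ∈ s, ∀ x y, μ j x y ∈ S) → S = ⊤) :
    Module.Finite ℂ V ∧ finrank ℂ V ≤ ∑ j ∈ s, finrank ℂ (A j) * finrank ℂ (B j) := by
  let Θ : (∀ j : s, TensorProduct ℂ (A j) (B j)) →ₗ[ℂ] V :=
    ∑ j : s, TensorProduct.lift (μ j.1) ∘ₗ LinearMap.proj j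
  have hΘ : LinearMap.range Θ = ⊤ := h _ fun j hj x y => by
    refine ⟨Pi.single ⟨j, hj⟩ (x ⊗ₜ y), ?_⟩
    rw [LinearMap.sum_apply, Finset.sum_eq_single ⟨j, hj⟩]
    · rw [LinearMap.comp_apply, LinearMap.proj_apply, Pi.single_eq_same, TensorProduct.lift.tmul]
    · intro j' _ hj'
      rw [LinearMap.comp_apply, LinearMap.proj_apply, Pi.single_eq_of_ne hj', map_zero]
    · exact fun h => absurd (Finset.mem_univ _) h
  have hs := LinearMap.range_eq_top.1 hΘ
  refine ⟨Module.Finite.of_surjective Θ hs,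
    (LinearMap.finrank_le_finrank_of_surjective hs).trans_eq ?_⟩
  rw [Module.finrank_pi_fintype, ← Finset.sum_coe_sort s]
  exact Finset.sum_congr rfl fun j _ => Module.finrank_tensorProduct

end tensor

end Vale.Agent.P291Z.EL
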