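import Vale.Agent.P291Z.Eul
import Vale.Agent.P291Z.OpsC
import Vale.Agent.P291Z.T13

/-!
# Compatibility of the level operations with the Gysin maps of consecutive approximations
-/

set_option linter.unusedSectionVars false

namespace Vale.Agent.P291Z.EL

open Set Function Topology

variable {G G' : Type} [Group G] [TopologicalSpace G] [Sys G] [Group G'] [TopologicalSpace G']
  [Sys G']

section one

variable (G) (Z : Type) [TopologicalSpace Z] [MulAction G Z] [Nice Z] [ContinuousSMul G Z]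

/-- the Gysin maps between consecutive approximations -/
noncomputable def gc (M : ℕ) : Hc (Bq G Z M) →ₗ[ℂ] Hc (Bq G Z (M + 1)) :=
  cgys (binc G Z M) (ecol G Z M)

variable {G Z}

theorem gys_gc (M : ℕ) (β : BM (Bq G Z (M + 1))) (x : Hc (Bq G Z M)) :
    gys (binc G Z M) (ecol G Z M) β x = β (gc G Z M x) := rfl

theorem gc_deg (M : ℕ) (k : ℤ) : ∀ x ∈ Hc.deg (Bq G Z M) k,
    gc G Z M x ∈ Hc.deg (Bq G Z (M + 1)) (k + 2 * Sys.rk G) := fun _ hx =>
  cgys_deg _ (isCo_ecol M).deg hx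

theorem dim_succ (k : ℤ) (M : ℕ) :
    k + 2 * Sys.dim G (M + 1) = k + 2 * Sys.dim G M + 2 * Sys.rk G := by
  rw [Sys.dim_succ]
  ring

theorem comp_gc (k : ℤ) (M : ℕ) (x : Hc (Bq G Z M)) :
    Hc.comp (k + 2 * Sys.dim G (M + 1)) (gc G Z M x) =
      gc G Z M (Hc.comp (k + 2 * Sys.dim G M) x) := by
  rw [dim_succ, Hc.comp_map (gc_deg M)]

theorem isDeg_comp {X : Type} [TopologicalSpace X] (k : ℤ) {V : Type} [AddCommGroup V]
    [Module ℂ V] (γ : Module.Dual ℂ V) (f : Hc X →ₗ[ℂ] V) (h : ∀ x, f (Hc.comp k x) = f x) :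
    BM.IsDeg k (γ ∘ₗ f) :=
  BM.isDeg_iff.2 fun j hj x hx => by
    rw [LinearMap.comp_apply, ← h, Hc.comp_of_ne hx hj.symm, map_zero, map_zero]

theorem comp_comp {X : Type} [TopologicalSpace X] (k : ℤ) (x : Hc X) :
    Hc.comp k (Hc.comp k x) = Hc.comp k x := Hc.comp_of_mem (Hc.comp_mem k x)

end one

section lev

variable {Z Z' : Type} [TopologicalSpace Z] [MulAction G Z] [Nice Z] [ContinuousSMul G Z]
  [TopologicalSpace Z'] [MulAction G' Z'] [Nice Z'] [ContinuousSMul G' Z']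
  {F : ∀ M, Bq G Z M → Bq G' Z' M} {c : ℤ} (hF : IsLev F c)
include hF

theorem gys_pull_ecol (M : ℕ) : gys (binc G Z M) (pull (F (M + 1)) (ecol G' Z' M)) =
    gys (binc G Z M) (ecol G Z M) :=
  gys_congr (isClosedEmbedding_binc M) (cocycle_pull (hF.cont _) (isCo_ecol M).cocycle)
    ((supp_pull (hF.cont _) _).trans ((preimage_mono (isCo_ecol M).supp).trans (hF.cart M)))
    (isCo_ecol M).cocycle (isCo_ecol M).supp (hF.col M)

theorem lev_push (hp : ∀ M, IsPr (F M)) (M : ℕ) (β : BM (Bq G Z (M + 1))) :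
    gys (binc G' Z' M) (ecol G' Z' M) (push (F (M + 1)) β) =
      push (F M) (gys (binc G Z M) (ecol G Z M) β) := by
  rw [gys_push (isClosedEmbedding_binc M) (isClosedEmbedding_binc M) (hp _) (hp _) (hF.comm M)
    (hF.cart M) (isCo_ecol M).cocycle (isCo_ecol M).supp, gys_pull_ecol hF]

theorem lev_res (hp : ∀ M, IsOpenEmbedding (F M)) (M : ℕ) (β : BM (Bq G' Z' (M + 1))) :
    gys (binc G Z M) (ecol G Z M) (res (F (M + 1)) β) =
      res (F M) (gys (binc G' Z' M) (ecol G' Z' M) β) := by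
  rw [res_gys (isClosedEmbedding_binc M) (isClosedEmbedding_binc M) (hp _) (hp _) (hF.comm M)
    (hF.cart M) (isCo_ecol M).cocycle (isCo_ecol M).supp, gys_pull_ecol hF]

end lev

section exact

variable {X Y U : Type} [TopologicalSpace X] [MulAction G X] [Nice X]
  [ContinuousSMul G X] [TopologicalSpace Y] [MulAction G Y] [Nice Y] [ContinuousSMul G Y]
  [TopologicalSpace U] [MulAction G U] [Nice U] [ContinuousSMul G U]

omit [Nice X] [ContinuousSMul G X] in
theorem mk_mem_bset {A : Set X} (hA : ∀ (g : G), ∀ z ∈ A, g • z ∈ A) {M : ℕ}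
    (y : X × Sys.P G M) : Bor.mk G y ∈ bset A M ↔ y.1 ∈ A := by
  refine ⟨fun ⟨y', h, e⟩ => ?_, fun h => ⟨y, h, rfl⟩⟩
  obtain ⟨g, rfl⟩ := Bor.mk_eq_iff.1 e
  exact hA g _ h

omit [TopologicalSpace X] [Nice X] [ContinuousSMul G X] [TopologicalSpace Y] [Nice Y]
  [ContinuousSMul G Y] in
theorem smul_mem_range (i : Y →[G] X) (g : G) : ∀ z ∈ range i, g • z ∈ range i := by
  rintro _ ⟨y, rfl⟩
  exact ⟨g • y, i.map_smul g y⟩

variable {i : Y →[G] X} {j : U →[G] X}

theorem range_smap_compl (hc : range j = (range i)ᶜ) (M : ℕ) :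
    range (smap j M) = (range (smap i M))ᶜ := by
  ext x
  obtain ⟨y, rfl⟩ : ∃ y, Bor.mk G y = x := Quotient.exists_rep x
  rw [mem_compl_iff, range_smap, range_smap, mk_mem_bset (smul_mem_range j),
    mk_mem_bset (smul_mem_range i), hc, mem_compl_iff]

theorem lev_bdy (hi : IsClosedEmbedding i) (hj : IsOpenEmbedding j) (hc : range j = (range i)ᶜ)
    (M : ℕ) (β : BM (Bq G U (M + 1))) :
    gys (binc G Y M) (ecol G Y M) (bdy (smap i (M + 1)) (smap j (M + 1)) β) =
      bdy (smap i M) (smap j M) (gys (binc G U M) (ecol G U M) β) := by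
  rw [← gys_pull_ecol (isLev_smap hi.continuous), ← gys_pull_ecol (isLev_smap hj.continuous)]
  exact bdy_gys (isClosedEmbedding_smap hi _) (isOpenEmbedding_smap hj _) (range_smap_compl hc _)
    (isClosedEmbedding_smap hi _) (isOpenEmbedding_smap hj _) (range_smap_compl hc _)
    (isClosedEmbedding_binc M) (isClosedEmbedding_binc M) (isClosedEmbedding_binc M)
    ((isLev_smap hi.continuous).comm M · |>.symm) ((isLev_smap hj.continuous).comm M · |>.symm)
    (isCo_ecol M).cocycle (isCo_ecol M).supp β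

end exact

end Vale.Agent.P291Z.EL
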