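import Vale.Agent.P291Z.EH1
import Vale.Agent.P291Z.EL.Col
import Vale.Agent.P291Z.EL.Lev

/-!
# Exactness for families from levelwise exactness; families as functionals on a colimit
-/

set_option linter.unusedSectionVars false

namespace Vale.Agent.P291Z.EL

open Set Function Topology

theorem hc_eq_of_dual {V : Type} [AddCommGroup V] [Module ℂ V] {x y : V}
    (h : ∀ β : Module.Dual ℂ V, β x = β y) : x = y :=
  sub_eq_zero.1 ((Module.forall_dual_apply_eq_zero_iff ℂ _).1 fun β => by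
    rw [map_sub, h, sub_self])

variable {G G' : Type} [Group G] [TopologicalSpace G] [Sys G] [Group G'] [TopologicalSpace G']
  [Sys G']

section one

variable {Z : Type} [TopologicalSpace Z] [MulAction G Z] [Nice Z] [ContinuousSMul G Z]

theorem comp_mem_FamS {γ : ∀ M, BM (Bq G Z M)} (h : ∀ M, (gc G Z M).dualMap (γ (M + 1)) = γ M)
    (k : ℤ) : (fun M => γ M ∘ₗ Hc.comp (k + 2 * Sys.dim G M)) ∈ FamS G Z k :=
  mem_FamS_iff.2 fun M => ⟨LinearMap.ext fun x => by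
    rw [gys_gc, LinearMap.comp_apply, comp_gc, LinearMap.comp_apply, ← h M]
    rfl, isDeg_comp _ _ _ (comp_comp _)⟩

theorem deg_isDeg {k : ℤ} {β : EH G Z} (h : β ∈ EH.deg G Z k) (M : ℕ) :
    BM.IsDeg (k + 2 * Sys.dim G M) (β.1 M) := (h M).2

variable (G Z)

/-- the classes of degree `k` on the approximations -/
def Ad (k : ℤ) (M : ℕ) : Type := Hc.deg (Bq G Z M) (k + 2 * Sys.dim G M)

noncomputable instance (k : ℤ) (M : ℕ) : AddCommGroup (Ad G Z k M) :=
  inferInstanceAs (AddCommGroup (Hc.deg (Bq G Z M) (k + 2 * Sys.dim G M)))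

noncomputable instance (k : ℤ) (M : ℕ) : Module ℂ (Ad G Z k M) :=
  inferInstanceAs (Module ℂ (Hc.deg (Bq G Z M) (k + 2 * Sys.dim G M)))

/-- the Gysin maps in degree `k` -/
noncomputable def ad (k : ℤ) (M : ℕ) : Ad G Z k M →ₗ[ℂ] Ad G Z k (M + 1) :=
  (gc G Z M).restrict fun x hx => by
    rw [dim_succ]
    exact gc_deg M _ x hx

/-- the colimit of the classes of degree `k` -/
abbrev CD (k : ℤ) : Type := Col (ad G Z k)

/-- the maps to the colimit -/
noncomputable abbrev ofD (k : ℤ) (M : ℕ) : Ad G Z k M →ₗ[ℂ] CD G Z k := of (ad G Z k) M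

/-- the projection to the classes of degree `k` -/
noncomputable def prD (k : ℤ) (M : ℕ) : Hc (Bq G Z M) →ₗ[ℂ] Ad G Z k M :=
  (Hc.comp (k + 2 * Sys.dim G M)).codRestrict _ (Hc.comp_mem _)

/-- restriction of a family to the classes of its degree -/
noncomputable def toFam (k : ℤ) : EH.deg G Z k →ₗ[ℂ] Fam (ad G Z k) where
  toFun β := ⟨fun M => β.1.1 M ∘ₗ Submodule.subtype _, fun M x =>
    LinearMap.congr_fun (EH.compat β.1 M) x.1⟩
  map_add' _ _ := rfl
  map_smul' _ _ := rfl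

theorem toFam_bijective (k : ℤ) : Bijective (toFam G Z k) := by
  refine ⟨(injective_iff_map_eq_zero _).2 fun β h => Subtype.ext (EH.ext fun M =>
    LinearMap.ext fun x => ?_), fun γ => ?_⟩
  · rw [← (deg_isDeg β.2 M).comp x]
    exact LinearMap.congr_fun (congrFun (congrArg Subtype.val h) M) ⟨_, Hc.comp_mem _ x⟩
  · have h : (fun M => γ.1 M ∘ₗ prD G Z k M) ∈ FamS G Z k :=
      mem_FamS_iff.2 fun M => ⟨LinearMap.ext fun x => by
      rw [gys_gc, LinearMap.comp_apply, LinearMap.comp_apply, ← γ.2 M]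
      exact congrArg _ (Subtype.ext (comp_gc k M x)),
      isDeg_comp _ _ _ fun x => Subtype.ext (comp_comp _ x)⟩
    refine ⟨⟨EH.mk _ h, h⟩, Subtype.ext (funext fun M => LinearMap.ext fun x => ?_)⟩
    exact congrArg (γ.1 M) (Subtype.ext (Hc.comp_of_mem x.2))

/-- `EH.deg k` is the dual of the colimit of the classes of degree `k` -/
noncomputable def degEquiv (k : ℤ) : EH.deg G Z k ≃ₗ[ℂ] Module.Dual ℂ (CD G Z k) :=
  (LinearEquiv.ofBijective _ (toFam_bijective G Z k)).trans (famEquiv _).symm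

variable {G Z}

theorem finite_iff {k : ℤ} :
    Module.Finite ℂ (EH.deg G Z k) ↔ Module.Finite ℂ (CD G Z k) := by
  rw [← Module.finite_dual_iff (K := ℂ) (V := CD G Z k)]
  exact Module.Finite.equiv_iff (degEquiv G Z k)

theorem finrank_eq (k : ℤ) :
    Module.finrank ℂ (EH.deg G Z k) = Module.finrank ℂ (CD G Z k) := by
  rw [(degEquiv G Z k).finrank_eq, Subspace.dual_finrank_eq]

theorem col_eq_zero {k : ℤ} (h : EH.deg G Z k = ⊥) (z : CD G Z k) : z = 0 :=
  (Module.forall_dual_apply_eq_zero_iff ℂ _).1 fun β => by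
    obtain ⟨γ, rfl⟩ := (degEquiv G Z k).surjective β
    have : γ = 0 := Subtype.ext ((Submodule.eq_bot_iff _).1 h _ γ.2)
    rw [this, map_zero, LinearMap.zero_apply]

end one

section exact

variable {X Y U : Type} [TopologicalSpace X] [MulAction G X] [Nice X]
  [ContinuousSMul G X] [TopologicalSpace Y] [MulAction G Y] [Nice Y] [ContinuousSMul G Y]
  [TopologicalSpace U] [MulAction G U] [Nice U] [ContinuousSMul G U]

/-- exactness for families from levelwise exactness -/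
theorem exact_of_level {Φ : EH G Y →ₗ[ℂ] EH G X} {Ψ : EH G X →ₗ[ℂ] EH G U}
    {f : ∀ M, Hc (Bq G U M) →ₗ[ℂ] Hc (Bq G X M)} {g : ∀ M, Hc (Bq G X M) →ₗ[ℂ] Hc (Bq G Y M)}
    (hΦ : ∀ β M, (Φ β).1 M = (g M).dualMap (β.1 M))
    (hΨ : ∀ β M, (Ψ β).1 M = (f M).dualMap (β.1 M)) (he : ∀ M, Function.Exact (f M) (g M))
    (hg : ∀ M β, gys (binc G X M) (ecol G X M) ((g (M + 1)).dualMap β) =
      (g M).dualMap (gys (binc G Y M) (ecol G Y M) β))
    {r c : ℤ} (hr : ∀ M k, ∀ x ∈ Hc.deg _ k, g M x ∈ Hc.deg _ (k + r))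
    (hc : ∀ k, ∀ β ∈ EH.deg G X k, Ψ β ∈ EH.deg G U (k + c)) : Function.Exact Φ Ψ := by
  have key : ∀ k, ∀ β ∈ EH.deg G X k, Ψ β = 0 → β ∈ LinearMap.range Φ := fun k β hβ h0 => by
    obtain ⟨γ, h1, h2⟩ := exists_fam (b := gc G X) (c := gc G Y)
      (fun M x => hc_eq_of_dual fun γ => LinearMap.congr_fun (hg M γ) x) he (EH.compat β)
      (fun M => by rw [← hΨ, h0]; rfl)
    refine ⟨EH.mk _ (comp_mem_FamS h1 (k + r)), EH.ext fun M => LinearMap.ext fun x => ?_⟩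
    rw [hΦ, ← (deg_isDeg hβ M).comp x, ← h2, LinearMap.dualMap_apply, LinearMap.dualMap_apply,
      ← Hc.comp_map (hr M), add_right_comm]
    rfl
  intro β
  constructor
  · intro h0
    obtain ⟨s, hs, -⟩ := EH.exists_sum_comp β
    rw [← hs]
    refine (LinearMap.range Φ).sum_mem fun k _ => key k _ (EH.comp_mem k β) ?_
    rw [← EH.comp_map hc, h0, map_zero]
  · rintro ⟨γ, rfl⟩
    refine EH.ext fun M => LinearMap.ext fun x => ?_
    rw [hΨ, hΦ, LinearMap.dualMap_apply, LinearMap.dualMap_apply, (he M).apply_apply_eq_zero,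
      map_zero]
    rfl

end exact

section cross

variable {X X₁ X₂ : Type} [TopologicalSpace X] [TopologicalSpace X₁] [TopologicalSpace X₂]
  [Nice X] [Nice X₁] [Nice X₂] {p₁ : X → X₁} {p₂ : X → X₂}
  (hp : IsHomeomorph fun x => (p₁ x, p₂ x))
include hp

theorem cross_cross (β₁ : BM X₁) (β₂ : BM X₂) (x : Hc X₁) (y : Hc X₂) :
    cross p₁ p₂ β₁ β₂ (Hc.cross (IsPr.of_isHomeomorph hp) x y) = β₁ x * β₂ y :=
  (cross_iff (IsPr.of_isHomeomorph hp)).1 ((Cross_iff hp).2 rfl) x y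

theorem eq_of_cross {u v : Hc X} (h : ∀ β₁ β₂, cross p₁ p₂ β₁ β₂ u = cross p₁ p₂ β₁ β₂ v) :
    u = v := by
  obtain ⟨s, hs⟩ := (Hc.kunneth hp).2 (u - v)
  rw [← sub_eq_zero, ← hs, tensor_eq_zero (s := s) fun β γ => ?_, map_zero]
  rw [← sub_eq_zero.2 (h β γ), ← map_sub, ← hs]
  clear hs
  induction s with
  | zero => simp only [map_zero]
  | tmul x y => rw [TensorProduct.lift.tmul, cross_cross hp, TensorProduct.dualDistrib_apply]
  | add x y hx hy => simp only [map_add, hx, hy]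

end cross

section prod

variable {G₁ G₂ Z Z₁ Z₂ : Type} [Group G₁] [TopologicalSpace G₁] [Sys G₁] [Group G₂]
  [TopologicalSpace G₂] [Sys G₂] [TopologicalSpace Z] [MulAction G Z] [Nice Z] [ContinuousSMul G Z]
  [TopologicalSpace Z₁] [MulAction G₁ Z₁] [Nice Z₁] [ContinuousSMul G₁ Z₁]
  [TopologicalSpace Z₂] [MulAction G₂ Z₂] [Nice Z₂] [ContinuousSMul G₂ Z₂]
  {p₁ : ∀ M, Bq G Z M → Bq G₁ Z₁ M} {p₂ : ∀ M, Bq G Z M → Bq G₂ Z₂ M} (hp : IsProd p₁ p₂)
include hp

theorem lev_cross (M : ℕ) (β₁ : BM (Bq G₁ Z₁ (M + 1))) (β₂ : BM (Bq G₂ Z₂ (M + 1))) :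
    gys (binc G Z M) (ecol G Z M) (cross (p₁ (M + 1)) (p₂ (M + 1)) β₁ β₂) =
      cross (p₁ M) (p₂ M) (gys (binc G₁ Z₁ M) (ecol G₁ Z₁ M) β₁)
        (gys (binc G₂ Z₂ M) (ecol G₂ Z₂ M) β₂) := by
  have c₁ := (IsPr.of_isHomeomorph (hp.homeo (M + 1))).cont₁
  have c₂ := (IsPr.of_isHomeomorph (hp.homeo (M + 1))).cont₂
  rw [← gys_cross (hp.homeo _) (hp.homeo _) (hp.comm₁ M) (hp.comm₂ M) (isClosedEmbedding_binc M)
    (isClosedEmbedding_binc M) (isCo_ecol M) (isCo_ecol M),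
    gys_congr (isClosedEmbedding_binc M) (cocycle_mul (cocycle_pull c₁ (isCo_ecol M).cocycle)
      (cocycle_pull c₂ (isCo_ecol M).cocycle)) ?_ (isCo_ecol M).cocycle (isCo_ecol M).supp
      (hp.col M)]
  intro x hx
  obtain ⟨y₁, h₁⟩ := (isCo_ecol M).supp (supp_pull c₁ _ (supp_mul _ _ hx).1)
  obtain ⟨y₂, h₂⟩ := (isCo_ecol M).supp (supp_pull c₂ _ (supp_mul _ _ hx).2)
  obtain ⟨y, hy⟩ := (hp.homeo M).surjective (y₁, y₂)
  obtain ⟨rfl, rfl⟩ := Prod.ext_iff.1 hy
  exact ⟨y, (hp.homeo (M + 1)).injective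
    (Prod.ext ((hp.comm₁ M y).trans h₁) ((hp.comm₂ M y).trans h₂))⟩

theorem cross_mem_FamS {k l : ℤ} {β₁ : ∀ M, BM (Bq G₁ Z₁ M)} {β₂ : ∀ M, BM (Bq G₂ Z₂ M)}
    (h₁ : β₁ ∈ FamS G₁ Z₁ k) (h₂ : β₂ ∈ FamS G₂ Z₂ l) :
    (fun M => cross (p₁ M) (p₂ M) (β₁ M) (β₂ M)) ∈ FamS G Z (k + l) :=
  mem_FamS_iff.2 fun M => ⟨by
    rw [lev_cross hp, (mem_FamS_iff.1 h₁ M).1, (mem_FamS_iff.1 h₂ M).1], by
    have := BM.IsDeg.cross (hp.homeo M) (h₁ M).2 (h₂ M).2
    rwa [hp.dim M, show k + l + 2 * (Sys.dim G₁ M + Sys.dim G₂ M) =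
      k + 2 * Sys.dim G₁ M + (l + 2 * Sys.dim G₂ M) by ring]⟩

theorem cross_mem_EHs {β₁ : ∀ M, BM (Bq G₁ Z₁ M)} {β₂ : ∀ M, BM (Bq G₂ Z₂ M)}
    (h₁ : β₁ ∈ EHs G₁ Z₁) (h₂ : β₂ ∈ EHs G₂ Z₂) :
    (fun M => cross (p₁ M) (p₂ M) (β₁ M) (β₂ M)) ∈ EHs G Z := by
  induction h₁ using Submodule.iSup_induction' with
  | zero =>
    simp only [Pi.zero_apply, map_zero, LinearMap.zero_apply]
    exact zero_mem _
  | add x y _ _ hx hy =>
    simp only [Pi.add_apply, map_add, LinearMap.add_apply]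
    exact add_mem hx hy
  | mem k x hx =>
    induction h₂ using Submodule.iSup_induction' with
    | zero =>
      simp only [Pi.zero_apply, map_zero]
      exact zero_mem _
    | add x y _ _ hx hy =>
      simp only [Pi.add_apply, map_add]
      exact add_mem hx hy
    | mem l y hy => exact le_iSup (FamS G Z) (k + l) (cross_mem_FamS hp hx hy)

theorem gc_cross (M : ℕ) (x : Hc (Bq G₁ Z₁ M)) (y : Hc (Bq G₂ Z₂ M)) :
    Hc.cross (IsPr.of_isHomeomorph (hp.homeo (M + 1))) (gc G₁ Z₁ M x) (gc G₂ Z₂ M y) =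
      gc G Z M (Hc.cross (IsPr.of_isHomeomorph (hp.homeo M)) x y) :=
  eq_of_cross (hp.homeo _) fun β₁ β₂ => by
    rw [cross_cross (hp.homeo _), ← gys_gc (Z := Z), lev_cross hp, cross_cross (hp.homeo _),
      gys_gc, gys_gc]

theorem cross_mem_deg {k l m : ℤ} (h : k + l = m) (M : ℕ) (x : Ad G₁ Z₁ k M) (y : Ad G₂ Z₂ l M) :
    Hc.cross (IsPr.of_isHomeomorph (hp.homeo M)) x.1 y.1 ∈
      Hc.deg (Bq G Z M) (m + 2 * Sys.dim G M) := by
  have := Hc.cross_deg (IsPr.of_isHomeomorph (hp.homeo M)) x.2 y.2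
  rwa [hp.dim M, ← h, show k + l + 2 * (Sys.dim G₁ M + Sys.dim G₂ M) =
    k + 2 * Sys.dim G₁ M + (l + 2 * Sys.dim G₂ M) by ring]

/-- the cross product on the colimits -/
theorem exists_col_cross {k l m : ℤ} (h : k + l = m) :
    ∃ μ : CD G₁ Z₁ k →ₗ[ℂ] CD G₂ Z₂ l →ₗ[ℂ] CD G Z m, ∀ M x y,
      μ (ofD G₁ Z₁ k M x) (ofD G₂ Z₂ l M y) = ofD G Z m M ⟨_, cross_mem_deg hp h M x y⟩ :=
  exists_bilin (a := ad G₁ Z₁ k) (b := ad G₂ Z₂ l) (c := ad G Z m)
    (fun M => LinearMap.mk₂ ℂ (fun x y => ⟨_, cross_mem_deg hp h M x y⟩)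
    (fun _ _ _ => Subtype.ext (LinearMap.map_add₂ _ _ _ _))
    (fun _ _ _ => Subtype.ext (LinearMap.map_smul₂ _ _ _ _))
    (fun _ _ _ => Subtype.ext (map_add _ _ _)) (fun _ _ _ => Subtype.ext (map_smul _ _ _)))
    fun M x y => Subtype.ext (gc_cross hp M x.1 y.1)

/-- the colimit for the product is spanned by the cross products -/
theorem col_span {m : ℤ} (S : Submodule ℂ (CD G Z m))
    (hS : ∀ k l (h : k + l = m) M x y, ofD G Z m M ⟨_, cross_mem_deg hp h M x y⟩ ∈ S) :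
    S = ⊤ := by
  have key : ∀ M (c : Hc (Bq G Z M)), ofD G Z m M (prD G Z m M c) ∈ S := fun M c => by
    refine Hc.cross_induction (hp.homeo M)
      (P := fun c => ofD G Z m M (prD G Z m M c) ∈ S) ?_ ?_ ?_ c
    · simp only [map_zero, zero_mem]
    · intro a b ha hb
      simpa only [map_add] using add_mem ha hb
    · intro x y
      induction x using Hc.induction_deg with
      | h0 => simp only [map_zero, LinearMap.zero_apply, zero_mem]
      | hadd a b ha hb => simpa only [map_add, LinearMap.add_apply] using add_mem ha hb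
      | h k =>
        induction y using Hc.induction_deg with
        | h0 => simp only [map_zero, zero_mem]
        | hadd a b ha hb => simpa only [map_add] using add_mem ha hb
        | h l =>
          have hd := Hc.cross_deg (IsPr.of_isHomeomorph (hp.homeo M)) (Hc.comp_mem k x)
            (Hc.comp_mem l y)
          by_cases hkl : m + 2 * Sys.dim G M = k + l
          · have := hS (k - 2 * Sys.dim G₁ M) (l - 2 * Sys.dim G₂ M)
              (by rw [hp.dim M] at hkl; omega) M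
              ⟨Hc.comp k x, by rw [sub_add_cancel]; exact Hc.comp_mem k x⟩
              ⟨Hc.comp l y, by rw [sub_add_cancel]; exact Hc.comp_mem l y⟩
            refine (congrArg (fun z => ofD G Z m M z ∈ S) (Subtype.ext ?_)).mpr this
            exact Hc.comp_of_mem (hkl ▸ hd)
          · have : prD G Z m M
                (Hc.cross (IsPr.of_isHomeomorph (hp.homeo M)) (Hc.comp k x) (Hc.comp l y)) = 0 :=
              Subtype.ext (Hc.comp_of_ne hd hkl)
            rw [this, map_zero]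
            exact zero_mem _
  refine eq_top_iff.2 fun z _ => ?_
  obtain ⟨M, x, rfl⟩ := exists_of _ z
  have := key M x.1
  rwa [show prD G Z m M x.1 = x from Subtype.ext (Hc.comp_of_mem x.2)] at this

end prod

end Vale.Agent.P291Z.EL
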